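import Vale.Agent.P140W36.Fin

open MeasureTheory Metric Vale.Agent.P140W36 Vale.Agent.P122W36

/-- **Non-uniqueness of renormalized entropy solutions of the hard-sphere Boltzmann equation on the
torus.** The unit sphere has exactly one induced surface measure `σ`, the area-normalised
Hausdorff measure. For this `σ` the uniqueness statement Q1 fails: one datum has two solutions
that differ at some time. -/
theorem Vale.Agent.Results.P140.ADistributions.result :
    IsSurface (sphere (0 : R3) 1) ∧ (∃! σ : Measure R3, IsSurfaceMeasure (sphere 0 1) σ) ∧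
    ∀ σ : Measure R3, IsSurfaceMeasure (sphere 0 1) σ →
      σ = (Measure.euclideanHausdorffMeasure 2).restrict (sphere 0 1) ∧ ¬ Uniqueness σ ∧
      ∃ (F0 : Om → ℝ) (F G : ℝ → Om → ℝ), IsDatum F0 ∧ IsSol σ F0 F ∧ IsSol σ F0 G ∧
        ∃ t : ℝ, 0 ≤ t ∧ ¬ F t =ᵐ[volume] G t :=
  final
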